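import Vale.Agent.P121.Main

namespace Vale.Agent.Results.P121.MongeFails

open MeasureTheory Vale.Agent.P121
open scoped ENNReal

/-- An absolutely continuous probability measure with finite Coulomb Kantorovich value
whose three-marginal problem has no optimal Monge plan. -/
theorem result :
    ∃ μ : Measure (EuclideanSpace ℝ (Fin 3)), IsProbabilityMeasure μ ∧
      Measure.AbsolutelyContinuous μ volume ∧ kantorovich μ < ⊤ ∧
      ∀ T2 T3 : EuclideanSpace ℝ (Fin 3) → EuclideanSpace ℝ (Fin 3),
        Measurable T2 → Measurable T3 → μ.map T2 = μ → μ.map T3 = μ →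
          kantorovich μ < ∫⁻ x, coulomb x (T2 x) (T3 x) ∂μ :=
  ⟨mu, inferInstance, mu_ac, kant_lt_top, no_monge⟩

end Vale.Agent.Results.P121.MongeFails
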